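import Vale.Agent.P011.D4Y.H547.PartC
import Vale.Agent.P011N.D1.D4Y.Defs
import Vale.Agent.P011N.D1.D4Y.H63.PartA
import Vale.Agent.P011N.D1.D4Y.H691.Na

/-!
Version for big subgroups of `P011.D4Y.H547.PartC`.
-/

open NumberField Topology Filter

open scoped ComplexConjugate

set_option linter.unusedSectionVars false

namespace Vale.Agent.P011.D4Y

open Vale.Agent.P011.MPQ Vale.Agent.P011.D4 Vale.Agent.P011.D4.Oct Vale.Agent.P011.E6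

open Vale.Agent.P011.D4X

section move

variable {k L E : Type} [Field k] [Field L] [Field E]
  [Algebra k L] [Algebra k E] [Algebra L E]
  [IsScalarTower k L E] [NeZero (2 : E)] {ρ σ ι : E ≃ₐ[k] E} {α : E}
  {a b c : kˣ} {q : Lˣ} (H : HyI ρ σ ι α a b c q)

include H

/-- The parts are transported along an element of the finite residual. -/
theorem Part.moveB {b' c' b'' c'' : kˣ} {j l j'' l'' : Oct a b c} (h : Trip a b' c' gi j l)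
    (h'' : Trip a b'' c'' gi j'' l'') {n : OctL E a b c ≃ₗ[E] OctL E a b c}
    (hn : n ∈ RsIB ρ σ ι α a b c q) (hc : n * tQ E h * n⁻¹ = tQ E h'') {κ : Lˣ}
    (hp : ∃ w w' : ATI ρ σ ι α a b c q, w ∈ stab0I ρ σ ι α a b c q ∧ w' ∈ stabI ρ σ ι α q h'' ∧
      IsKapI ρ w.1 κ ∧ IsKapI ρ w'.1 κ ∧ IsNIB ρ σ ι α a b c q (w * w'⁻¹)) :
    ∃ w w' : ATI ρ σ ι α a b c q, w ∈ stab0I ρ σ ι α a b c q ∧ w' ∈ stabI ρ σ ι α q h ∧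
      IsKapI ρ w.1 κ ∧ IsKapI ρ w'.1 κ ∧ IsNIB ρ σ ι α a b c q (w * w'⁻¹) := by
  obtain ⟨w, w2, hw, hw2, hk, hk2, hN⟩ := hp
  obtain ⟨nA, rfl⟩ : ∃ nA : ATI ρ σ ι α a b c q, nA.1 = n :=
    ⟨⟨n, GTI_le_ATI (RsI_leB hn)⟩, rfl⟩
  have hnN : nA ∈ H.NAB := ⟨1, nA.1, hn, fun x => by
    rw [Units.val_one, map_one, map_one, one_smul]⟩
  have hkn : kapI nA = 1 := kapI_of_GTI (RsI_leB hn)
  refine ⟨w, nA⁻¹ * w2 * nA, hw, ?_, hk, ?_, ?_⟩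
  · change nA.1⁻¹ * w2.1 * nA.1 * tQ E h = tQ E h * (nA.1⁻¹ * w2.1 * nA.1)
    have h1 : w2.1 * tQ E h'' = tQ E h'' * w2.1 := hw2
    rw [← hc] at h1
    calc nA.1⁻¹ * w2.1 * nA.1 * tQ E h
        = nA.1⁻¹ * (w2.1 * (nA.1 * tQ E h * nA.1⁻¹)) * nA.1 := by group
      _ = nA.1⁻¹ * (nA.1 * tQ E h * nA.1⁻¹ * w2.1) * nA.1 := by rw [h1]
      _ = tQ E h * (nA.1⁻¹ * w2.1 * nA.1) := by group
  · have e2 : kapI (nA⁻¹ * w2 * nA) = κ := by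
      rw [kapI_mul, kapI_mul, kapI_inv, hkn, inv_one, one_mul, mul_one, kapI_eq hk2]
    rw [← e2]
    exact isKapI_kapI _
  · have e3 : w * (nA⁻¹ * w2 * nA)⁻¹ = (w * w2⁻¹) * (w2 * nA⁻¹ * w2⁻¹) * nA := by group
    rw [e3]
    exact H.NAB.mul_mem (H.NAB.mul_mem hN
      ((HyI.NA_normalB H).conj_mem _ (H.NAB.inv_mem hnN) w2)) hnN

end move

section core

variable {k L E E1 O : Type} [Field k] [NumberField k] [Field L] [NumberField L] [Field E]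
  [Field E1] [Field O] [Algebra k L]
  [Algebra k E] [Algebra L E] [Algebra k E1] [Algebra L E1] [Algebra k O] [Algebra L O]
  [Algebra E O] [Algebra E1 O] [IsScalarTower k L E] [IsScalarTower k L E1]
  [IsScalarTower k L O]
  [IsScalarTower k E O] [IsScalarTower k E1 O] [IsScalarTower L E O] [IsScalarTower L E1 O]
  [NeZero (2 : E)] [NeZero (2 : E1)]
  {a b c a1 b1 c1 : kˣ} {q : Lˣ}
  {ρ σ ι : E ≃ₐ[k] E} {α : E} {D : k} {w0 : Qt a b}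
  {w : Qt (up L a) (q * up L b)} {ρ1 σ1 ι1 : E1 ≃ₐ[k] E1} {α1 : E1} {ρ' σ' τ' ι' : O ≃ₐ[k] O}
  {q1 : Lˣ} {u : OctL O a1 b1 c1 ≃ₗ[O] OctL O a b c}
  {φ : ATI ρ σ ι α a b c q ≃* ATI ρ1 σ1 ι1 α1 a1 b1 c1 q1}

/-- The parts, from one conjugation in the new model. -/
theorem Part.core1B (X : KCXI ρ σ ι α D w0 w ρ1 σ1 ι1 α1 ρ' σ' τ' ι' q1 u φ)
    (hN : ∀ {b' c' : kˣ} {j l : Oct a1 b1 c1} (h : Trip a1 b' c' gi j l)
      {z : ATI ρ1 σ1 ι1 α1 a1 b1 c1 q1}, z ∈ stabI ρ1 σ1 ι1 α1 q1 h → kapI z = 1 →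
      IsNIB ρ1 σ1 ι1 α1 a1 b1 c1 q1 z)
    {b' c' : kˣ} {j l : Oct a b c} (h : Trip a b' c' gi j l)
    {y' : ATI ρ1 σ1 ι1 α1 a1 b1 c1 q1} (hy' : y' ∈ stabsI ρ1 σ1 ι1 α1 a1 b1 c1 q1) {b2 c2 : kˣ}
    {j1 l1 : Oct a1 b1 c1} {h1 : Trip a1 b2 c2 gi j1 l1}
    (hy1 : y' * φ (tATI ρ σ ι α q h) * y'⁻¹ = tATI ρ1 σ1 ι1 α1 q1 h1) {x y : L} (κ : Lˣ)
    (hκ : (κ : L) = x ^ 2 - algebraMap k L D * y ^ 2) :
    ∃ w w' : ATI ρ σ ι α a b c q, w ∈ stab0I ρ σ ι α a b c q ∧ w' ∈ stabI ρ σ ι α q h ∧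
      IsKapI ρ w.1 κ ∧ IsKapI ρ w'.1 κ ∧ IsNIB ρ σ ι α a b c q (w * w'⁻¹) := by
  obtain ⟨e, he0, hι, he⟩ := Part.exists_norm X.H1 X.ha1 hκ
  obtain ⟨z, κ', hz1, hz2, hz3⟩ := exists_tor X.H1 e he0 hι
  have e1 : κ' = κ := by
    apply Units.ext
    apply (algebraMap L E1).injective
    rw [hz2, he]
  rw [e1] at hz1
  exact Part.of_isoB X.H1 X.kp X.st0 hN h hy' h1 (fun z hz => z5I_stab hy1 hz) hz1 hz3

end core

end Vale.Agent.P011.D4Y
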